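import Claimed.Agent.R257.Infra.Str.Defs

/-!
# R257 / Infra / Str / L2 : the `L²` bound of the fixed time operator      (architect helper176; LEAF L-INF-STR-L2)
-/

set_option autoImplicit false

namespace Claimed.Agent.R257

open MeasureTheory Metric Set Complex
open scoped ENNReal NNReal InnerProductSpace Real FourierTransform

variable {k : ℕ}

section plancherel

open scoped SchwartzMap ContDiff

theorem inf_str_pl_flip {V : Type*} [NormedAddCommGroup V] [InnerProductSpace ℝ V] [FiniteDimensional ℝ V] [MeasurableSpace V]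
    [BorelSpace V] {g : V → ℂ} (h1 : Integrable g) (φ : 𝓢(V, ℂ)) :
    ∫ ξ, (𝓕 φ) ξ • g ξ = ∫ x, φ x • 𝓕 g x := by
  simpa using! VectorFourier.integral_bilin_fourierIntegral_eq_flip (ContinuousLinearMap.lsmul ℂ ℂ) (L := innerₗ V)
    Real.continuous_fourierChar continuous_inner φ.integrable h1

theorem inf_str_pl_cont {V : Type*} [NormedAddCommGroup V] [InnerProductSpace ℝ V] [FiniteDimensional ℝ V] [MeasurableSpace V]
    [BorelSpace V] {g : V → ℂ} (h1 : Integrable g) : Continuous (𝓕 g) :=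
  VectorFourier.fourierIntegral_continuous Real.continuous_fourierChar (L := innerₗ V) continuous_inner h1

theorem inf_str_pl_ae {V : Type*} [NormedAddCommGroup V] [InnerProductSpace ℝ V] [FiniteDimensional ℝ V] [MeasurableSpace V]
    [BorelSpace V] {g : V → ℂ} (h1 : Integrable g) (h2 : MemLp g 2 volume) :
    ((𝓕 (h2.toLp g) : Lp ℂ 2 (volume : Measure V)) : V → ℂ) =ᵐ[volume] 𝓕 g := by
  set G := h2.toLp g with hG
  set H : Lp ℂ 2 (volume : Measure V) := 𝓕 G with hH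
  have hcont : Continuous (𝓕 g) := inf_str_pl_cont h1
  have hHl : LocallyIntegrable (H : V → ℂ) volume := (Lp.memLp H).locallyIntegrable (by norm_num)
  have key : ∀ φ : 𝓢(V, ℂ), ∫ x, φ x • (H : V → ℂ) x = ∫ x, φ x • 𝓕 g x := by
    intro φ
    have e1 := congrArg (fun T : 𝓢'(V, ℂ) => T φ) (Lp.fourier_toTemperedDistribution_eq G)
    simp only [TemperedDistribution.fourier_apply, Lp.toTemperedDistribution_apply] at e1
    rw [← hH] at e1
    rw [← e1, ← inf_str_pl_flip h1 φ]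
    refine integral_congr_ae ?_
    filter_upwards [h2.coeFn_toLp] with x hx
    rw [hx]
  have hz : ∀ᵐ x ∂(volume : Measure V), (H : V → ℂ) x - 𝓕 g x = 0 := by
    apply ae_eq_zero_of_integral_contDiff_smul_eq_zero
    · exact hHl.sub hcont.locallyIntegrable
    · intro u u_smooth u_cpt
      have hg₁ : HasCompactSupport (Complex.ofRealCLM ∘ u) := u_cpt.comp_left rfl
      have hg₂ : ContDiff ℝ ∞ (Complex.ofRealCLM ∘ u) := by fun_prop
      have hk := key (hg₁.toSchwartzMap hg₂)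
      have i1 : Integrable (fun x => u x • (H : V → ℂ) x) :=
        hHl.integrable_smul_left_of_hasCompactSupport u_smooth.continuous u_cpt
      have i2 : Integrable (fun x => u x • 𝓕 g x) :=
        hcont.locallyIntegrable.integrable_smul_left_of_hasCompactSupport u_smooth.continuous u_cpt
      simp only [smul_sub]
      rw [integral_sub i1 i2, sub_eq_zero]
      simpa using hk
  filter_upwards [hz] with x hx
  exact sub_eq_zero.1 hx

theorem inf_str_pl_norm_sq {V : Type*} [MeasurableSpace V] {μ : Measure V} (F : Lp ℂ 2 μ) : ‖F‖ ^ 2 = ∫ x, ‖(F : V → ℂ) x‖ ^ 2 ∂μ := by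
  have h := (Lp.memLp F).eLpNorm_eq_integral_rpow_norm (by norm_num) (by norm_num)
  have h0 : 0 ≤ ∫ x, ‖(F : V → ℂ) x‖ ^ 2 ∂μ := integral_nonneg fun x => by positivity
  rw [Lp.norm_def, h]
  simp only [ENNReal.toReal_ofNat, Real.rpow_ofNat]
  rw [ENNReal.toReal_ofReal (by positivity), ← Real.rpow_natCast, ← Real.rpow_mul h0]
  norm_num

/-- **Plancherel for `L¹ ∩ L²`** (pointwise Fourier integral) -/
theorem inf_str_pl_plancherel {V : Type*} [NormedAddCommGroup V] [InnerProductSpace ℝ V] [FiniteDimensional ℝ V] [MeasurableSpace V]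
    [BorelSpace V] {g : V → ℂ} (h1 : Integrable g) (h2 : MemLp g 2 volume) :
    MemLp (𝓕 g) 2 volume ∧ ∫ η, ‖𝓕 g η‖ ^ 2 = ∫ x, ‖g x‖ ^ 2 := by
  have hae := inf_str_pl_ae h1 h2
  have hm : MemLp (𝓕 g) 2 volume := (memLp_congr_ae hae).1 (Lp.memLp _)
  refine ⟨hm, ?_⟩
  have hn := Lp.norm_fourier_eq (h2.toLp g)
  have a1 : ‖(𝓕 (h2.toLp g) : Lp ℂ 2 (volume : Measure V))‖ ^ 2 = ∫ η, ‖𝓕 g η‖ ^ 2 := by
    rw [inf_str_pl_norm_sq]
    refine integral_congr_ae ?_
    filter_upwards [hae] with x hx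
    rw [hx]
  have a2 : ‖h2.toLp g‖ ^ 2 = ∫ x, ‖g x‖ ^ 2 := by
    rw [inf_str_pl_norm_sq]
    refine integral_congr_ae ?_
    filter_upwards [h2.coeFn_toLp] with x hx
    rw [hx]
  rw [← a1, ← a2, hn]

/-- the same for `𝓕⁻` (`𝓕⁻ g x = 𝓕 g (-x)`) -/
theorem inf_str_pl_plancherel_inv {V : Type*} [NormedAddCommGroup V] [InnerProductSpace ℝ V] [FiniteDimensional ℝ V] [MeasurableSpace V]
    [BorelSpace V] {g : V → ℂ} (h1 : Integrable g) (h2 : MemLp g 2 volume) :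
    MemLp (𝓕⁻ g) 2 volume ∧ ∫ η, ‖𝓕⁻ g η‖ ^ 2 = ∫ x, ‖g x‖ ^ 2 := by
  obtain ⟨a, b⟩ := inf_str_pl_plancherel h1 h2
  have e : 𝓕⁻ g = fun x => 𝓕 g (-x) := by
    funext x
    exact Real.fourierInv_eq_fourier_neg g x
  rw [e]
  refine ⟨a.comp_measurePreserving (Measure.measurePreserving_neg volume), ?_⟩
  rw [← b]
  exact integral_neg_eq_self (fun η => ‖𝓕 g η‖ ^ 2) volume

theorem inf_str_pl_lint {V : Type*} [MeasurableSpace V] {μ : Measure V} {h : V → ℂ} (hh : MemLp h 2 μ) :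
    ∫⁻ x, ‖h x‖ₑ ^ (2 : ℝ) ∂μ = ENNReal.ofReal (∫ x, ‖h x‖ ^ 2 ∂μ) := by
  have hi : Integrable (fun x => ‖h x‖ ^ 2) μ := MemLp.integrable_norm_pow (p := 2) (by exact_mod_cast hh) (by norm_num)
  rw [ofReal_integral_eq_lintegral_ofReal hi (Filter.Eventually.of_forall fun x => by positivity)]
  refine lintegral_congr fun x => ?_
  rw [ENNReal.ofReal_pow (norm_nonneg _), ofReal_norm, ENNReal.rpow_ofNat]

end plancherel

/-- scaling of the kernel -/
theorem inf_str_K_scale (b : ℂ) (w : E k) :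
    strK b w = (((2 * π) ^ k : ℝ) : ℂ) * ∫ η : E k, cexp (-(b * (2 * π) ^ 2) * (‖η‖ : ℂ) ^ 2 + (2 * π * I) * (⟪w, η⟫_ℝ : ℂ)) := by
  have h := Measure.integral_comp_smul (volume : Measure (E k)) (fun ξ : E k => cexp (-b * (‖ξ‖ : ℂ) ^ 2 + I * (⟪w, ξ⟫_ℝ : ℂ))) (2 * π)
  rw [finrank_euclideanSpace_fin] at h
  have hpos : (0 : ℝ) < (2 * π) ^ k := by positivity
  rw [abs_of_pos (inv_pos.2 hpos)] at h
  have e : (fun η : E k => cexp (-(b * (2 * π) ^ 2) * (‖η‖ : ℂ) ^ 2 + (2 * π * I) * (⟪w, η⟫_ℝ : ℂ)))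
      = fun η : E k => cexp (-b * (‖(2 * π) • η‖ : ℂ) ^ 2 + I * (⟪w, (2 * π) • η⟫_ℝ : ℂ)) := by
    funext η
    rw [norm_smul, inner_smul_right, Real.norm_eq_abs, abs_of_pos (by positivity)]
    push_cast
    ring_nf
  rw [e, h]
  unfold strK
  rw [Complex.real_smul, ← mul_assoc, ← Complex.ofReal_mul, mul_inv_cancel₀ hpos.ne']
  simp


/-- the Gaussian multiplier times `𝓕⁻ f` -/
noncomputable def strG (b : ℂ) (f : E k → ℂ) (η : E k) : ℂ := cexp (-(b * (2 * π) ^ 2) * (‖η‖ : ℂ) ^ 2) * 𝓕⁻ f η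

theorem inf_str_gauss_re (b : ℂ) (hb : 0 < b.re) : 0 < (b * (2 * π) ^ 2).re := by
  have e : b * (2 * π) ^ 2 = (((2 * π) ^ 2 : ℝ) : ℂ) * b := by
    push_cast
    ring
  rw [e, Complex.re_ofReal_mul]
  positivity

theorem inf_str_gauss_norm (c : ℂ) (η : E k) (t : ℝ) :
    ‖cexp (-c * (‖η‖ : ℂ) ^ 2 + (t * I))‖ = Real.exp (-c.re * ‖η‖ ^ 2) := by
  rw [Complex.norm_exp]
  congr 1
  have e : -c * (‖η‖ : ℂ) ^ 2 = ((‖η‖ ^ 2 : ℝ) : ℂ) * (-c) := by
    push_cast
    ring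
  rw [Complex.add_re, e, Complex.re_ofReal_mul, Complex.re_ofReal_mul]
  simp
  ring

/-- **Fubini**: `T_b f = (2π)^k 𝓕 (G_b f)` -/
theorem inf_str_T_eq (b : ℂ) (hb : 0 < b.re) (f : E k → ℂ) (hf1 : Integrable f) (y : E k) :
    strT b f y = (((2 * π) ^ k : ℝ) : ℂ) * 𝓕 (strG b f) y := by
  have hc := inf_str_gauss_re b hb
  set c : ℂ := b * (2 * π) ^ 2 with hcdef
  set F : E k → E k → ℂ := fun x η => f x * cexp (-c * (‖η‖ : ℂ) ^ 2 + (2 * π * I) * (⟪x - y, η⟫_ℝ : ℂ)) with hF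
  have hint : Integrable (Function.uncurry F) (volume.prod volume) := by
    have hg : Integrable (fun η : E k => Real.exp (-c.re * ‖η‖ ^ 2)) := by
      have h := (GaussianFourier.integrable_cexp_neg_mul_sq_norm_add hc 0 (0 : E k)).norm
      refine h.congr (Filter.Eventually.of_forall fun η => ?_)
      have := inf_str_gauss_norm c η 0
      simpa using this
    have hm := hf1.norm.mul_prod hg
    refine hm.mono' ?_ (Filter.Eventually.of_forall fun p => ?_)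
    · refine hf1.aestronglyMeasurable.comp_fst.mul ?_
      refine Continuous.aestronglyMeasurable ?_
      fun_prop
    · simp only [Function.uncurry, hF, norm_mul]
      have e : (2 * π * I) * (⟪p.1 - y, p.2⟫_ℝ : ℂ) = ((2 * π * ⟪p.1 - y, p.2⟫_ℝ : ℝ) : ℂ) * I := by
        push_cast
        ring
      rw [e, inf_str_gauss_norm]
  have h1 : strT b f y = (((2 * π) ^ k : ℝ) : ℂ) * ∫ x, ∫ η, F x η := by
    unfold strT
    rw [← integral_const_mul]
    refine integral_congr_ae (Filter.Eventually.of_forall fun x => ?_)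
    simp only [hF]
    rw [integral_const_mul, inf_str_K_scale]
    ring
  have h2 : 𝓕 (strG b f) y = ∫ η, ∫ x, F x η := by
    rw [Real.fourier_eq']
    refine integral_congr_ae (Filter.Eventually.of_forall fun η => ?_)
    simp only [strG, hF]
    rw [Real.fourierInv_eq', smul_eq_mul, ← mul_assoc, ← integral_const_mul]
    refine integral_congr_ae (Filter.Eventually.of_forall fun x => ?_)
    simp only [smul_eq_mul]
    rw [← Complex.exp_add, ← mul_assoc, ← Complex.exp_add, mul_comm]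
    congr 2
    rw [inner_sub_left, real_inner_comm y η]
    push_cast
    ring
  rw [h1, h2, integral_integral_swap hint]


theorem inf_str_finv_cont (f : E k → ℂ) (hf1 : Integrable f) : Continuous (𝓕⁻ f) := by
  have e : 𝓕⁻ f = fun x => 𝓕 f (-x) := by
    funext x
    exact Real.fourierInv_eq_fourier_neg f x
  rw [e]
  exact (inf_str_pl_cont hf1).comp continuous_neg

theorem inf_str_finv_bdd (f : E k → ℂ) (η : E k) : ‖𝓕⁻ f η‖ ≤ ∫ x, ‖f x‖ := by
  rw [Real.fourierInv_eq']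
  refine (norm_integral_le_integral_norm _).trans (le_of_eq ?_)
  refine integral_congr_ae (Filter.Eventually.of_forall fun x => ?_)
  simp only [norm_smul]
  rw [Complex.norm_exp_ofReal_mul_I, one_mul]

theorem inf_str_G_le (b : ℂ) (hb : 0 < b.re) (f : E k → ℂ) (η : E k) : ‖strG b f η‖ ≤ ‖𝓕⁻ f η‖ := by
  have hc := inf_str_gauss_re b hb
  unfold strG
  rw [norm_mul]
  have h := inf_str_gauss_norm (b * (2 * π) ^ 2) η 0
  simp only [Complex.ofReal_zero, zero_mul, add_zero] at h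
  rw [h]
  have h1 : Real.exp (-(b * (2 * π) ^ 2).re * ‖η‖ ^ 2) ≤ 1 := by
    rw [Real.exp_le_one_iff]
    have := mul_nonneg hc.le (sq_nonneg ‖η‖)
    linarith
  calc _ ≤ 1 * ‖𝓕⁻ f η‖ := mul_le_mul_of_nonneg_right h1 (norm_nonneg _)
    _ = _ := one_mul _

theorem inf_str_G_cont (b : ℂ) (f : E k → ℂ) (hf1 : Integrable f) : Continuous (strG b f) := by
  unfold strG
  have := inf_str_finv_cont f hf1
  fun_prop

theorem inf_str_G_int (b : ℂ) (hb : 0 < b.re) (f : E k → ℂ) (hf1 : Integrable f) : Integrable (strG b f) := by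
  have hc := inf_str_gauss_re b hb
  have hg : Integrable (fun η : E k => cexp (-(b * (2 * π) ^ 2) * (‖η‖ : ℂ) ^ 2)) := by
    have h := GaussianFourier.integrable_cexp_neg_mul_sq_norm_add hc 0 (0 : E k)
    simpa using h
  exact hg.mul_bdd (c := ∫ x, ‖f x‖) (inf_str_finv_cont f hf1).aestronglyMeasurable
    (Filter.Eventually.of_forall fun η => inf_str_finv_bdd f η)

/-- **`L²` bound**  `‖T_b f‖₂ ≤ (2π)^k ‖f‖₂`, `Re b > 0`, `f ∈ L¹ ∩ L²`.

PLAN. 1. Plancherel for `L¹ ∩ L²` with the pointwise Fourier integral is PROVED in `Claimed/Agent/R256/Top/Tools.lean` (`ls_pl_flip, ls_pl_cont, ls_pl_ae, ls_pl_norm_sq, ls_plancherel, ls_plancherel_inv`,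
   ~90 lines, Mathlib only).  Do NOT import row 256: COPY these lemmas here under the fresh names `inf_str_pl_*`.
2. Fubini (majorant `‖f x‖ exp (-b.re ‖ξ‖²)`, `integrable_cexp_neg_mul_sq_norm_add`, `Integrable.mul_prod`, `integral_integral_swap`):
   `strT b f y = ∫_ξ cexp (-b ‖ξ‖²) cexp (-I ⟪y,ξ⟫) Φ ξ dξ`, `Φ ξ = ∫ f x cexp (I ⟪x,ξ⟫) dx = 𝓕⁻ f (ξ/(2π))`.
3. Substitution `ξ = 2π η` (`Measure.integral_comp_smul` : `∫ g (R • x) = |(R^finrank)⁻¹| • ∫ g`):  `strT b f y = (2π)^k 𝓕 (fun η => cexp (-4π² b ‖η‖²) * 𝓕⁻ f η) y`.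
4. `G η := cexp (-4π² b ‖η‖²) * 𝓕⁻ f η` is in `L¹ ∩ L²`: `‖𝓕⁻ f η‖ ≤ ∫ ‖f‖`, continuous, in `L²` (Plancherel), the Gaussian is integrable and `≤ 1` in norm.
   Plancherel twice: `∫ ‖𝓕 G‖² = ∫ ‖G‖² ≤ ∫ ‖𝓕⁻ f‖² = ∫ ‖f‖²`.  Convert to `∫⁻` (`ofReal_integral_eq_lintegral_ofReal`, `MemLp.integrable_norm_rpow`/`integrable_norm_pow`). -/
theorem inf_str_T_l2 (b : ℂ) (hb : 0 < b.re) (f : E k → ℂ) (hf1 : Integrable f) (hf2 : MemLp f 2 volume) :
    ∫⁻ y, ‖strT b f y‖ₑ ^ (2 : ℝ) ≤ ENNReal.ofReal ((2 * π) ^ (2 * k)) * ∫⁻ x, ‖f x‖ₑ ^ (2 : ℝ) := by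
  obtain ⟨hi2, hie⟩ := inf_str_pl_plancherel_inv hf1 hf2
  have hG1 := inf_str_G_int b hb f hf1
  have hG2 : MemLp (strG b f) 2 volume :=
    hi2.mono (inf_str_G_cont b f hf1).aestronglyMeasurable (Filter.Eventually.of_forall fun η => inf_str_G_le b hb f η)
  obtain ⟨hF2, hFe⟩ := inf_str_pl_plancherel hG1 hG2
  have e1 : ∀ y, ‖strT b f y‖ₑ ^ (2 : ℝ) = ENNReal.ofReal ((2 * π) ^ (2 * k)) * ‖𝓕 (strG b f) y‖ₑ ^ (2 : ℝ) := by
    intro y
    rw [inf_str_T_eq b hb f hf1 y, enorm_mul, ENNReal.mul_rpow_of_nonneg _ _ (by norm_num)]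
    congr 1
    rw [← ofReal_norm, Complex.norm_real, Real.norm_eq_abs, abs_of_pos (by positivity), ENNReal.rpow_ofNat,
      ← ENNReal.ofReal_pow (by positivity), ← pow_mul, mul_comm k 2]
  simp_rw [e1]
  rw [lintegral_const_mul' _ _ ENNReal.ofReal_ne_top]
  refine mul_le_mul' le_rfl ?_
  rw [inf_str_pl_lint hF2, inf_str_pl_lint hf2, hFe, ← hie]
  refine ENNReal.ofReal_le_ofReal ?_
  refine integral_mono (MemLp.integrable_norm_pow (p := 2) (by exact_mod_cast hG2) (by norm_num))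
    (MemLp.integrable_norm_pow (p := 2) (by exact_mod_cast hi2) (by norm_num)) fun η => ?_
  exact pow_le_pow_left₀ (norm_nonneg _) (inf_str_G_le b hb f η) 2

end Claimed.Agent.R257
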