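import Claimed.Agent.R257.Infra.Defs

/-!
# R257 / Infra / Str : U16 STRICHARTZ  (report 853 U16; H packets.tex l.747-756)      architect helper176, prefix `inf_str_` / `str`

EXIT (`Str/Main.lean`):  `inf_strichartz k (1 ≤ k) : ∃ C, ∀ R₀ g, Dat R₀ g → ∫⁻ ‖ext g‖ₑ^q ≤ C (∫⁻ ‖g‖ₑ²)^(q/2)`,  `q = strQ k = 2(k+2)/k`.

ROUTE (`p = strP k = q'`, `γ = 2 - 2/p = 2/q`):
* `Str/Hls.lean`     `inf_str_hls`     diagonal 1D Hardy-Littlewood-Sobolev, three regions, Mathlib only
* `Str/Interp.lean`  `inf_str_interp`  (1,∞)+(2,2) ⇒ strong (p,p') by hand (height cut + Chebyshev + layer cake), Mathlib only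
* `Str/Ker.lean`     `inf_str_K_norm_le`, `inf_str_K_meas`  Gaussian kernel `|K_b| ≤ (π/|b|)^(k/2)`
* `Str/L2.lean`      `inf_str_T_l2`    `‖T_b f‖₂ ≤ (2π)^k ‖f‖₂`  (Plancherel for `L¹ ∩ L²`)
* `Str/TLp.lean`     `inf_str_T_lp`    `‖T_{ε+iτ} f‖_q ≤ C |τ|^(-γ) ‖f‖_p`
* `Str/Bil.lean`     `inf_str_bil`     `∫ e^{-ε|ξ|²} |E^*F|² ≤ C ‖F‖_p²`   (Fubini + Hölder + HLS)
* `Str/Main.lean`    `inf_strichartz`  test with `F = |h|^(q-2) conj h 1_{ball}`, divide, monotone convergence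
-/

set_option autoImplicit false

namespace Claimed.Agent.R257

open MeasureTheory Metric Set Complex
open scoped ENNReal NNReal InnerProductSpace Real

variable {k : ℕ}

/-- regularised dispersive kernel `∫ e^{-b|ξ|² + i w·ξ} dξ` (`b = ε + iτ`) -/
noncomputable def strK (b : ℂ) (w : E k) : ℂ := ∫ ξ : E k, cexp (-b * (‖ξ‖ : ℂ) ^ 2 + I * (⟪w, ξ⟫_ℝ : ℂ))

/-- fixed time operator `T_b f (y) = ∫ f(x) K_b(x - y) dx` -/
noncomputable def strT (b : ℂ) (f : E k → ℂ) (y : E k) : ℂ := ∫ x, f x * strK b (x - y)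

/-- the dual exponent `p = q' = 2(k+2)/(k+4)` -/
noncomputable def strP (k : ℕ) : ℝ := 2 * ((k : ℝ) + 2) / ((k : ℝ) + 4)

/-- the Strichartz exponent `q = 2(k+2)/k` -/
noncomputable def strQ (k : ℕ) : ℝ := 2 * ((k : ℝ) + 2) / (k : ℝ)

/-- bounded measurable functions with bounded support -/
structure StrNice {X : Type*} [NormedAddCommGroup X] [MeasurableSpace X] (F : X → ℂ) : Prop where
  meas : Measurable F
  bdd : ∃ M : ℝ, ∀ z, ‖F z‖ ≤ M
  supp : ∃ R : ℝ, ∀ z, F z ≠ 0 → ‖z‖ ≤ R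

theorem strP_gt_one (hk : 1 ≤ k) : 1 < strP k := by
  have h : (1 : ℝ) ≤ k := by exact_mod_cast hk
  unfold strP
  rw [lt_div_iff₀ (by positivity)]
  linarith

theorem strP_lt_two : strP k < 2 := by
  have h : (0 : ℝ) ≤ k := Nat.cast_nonneg k
  unfold strP
  rw [div_lt_iff₀ (by positivity)]
  linarith

theorem strP_pos : 0 < strP k := by
  unfold strP
  positivity

theorem strQ_gt_two (hk : 1 ≤ k) : 2 < strQ k := by
  have h : (1 : ℝ) ≤ k := by exact_mod_cast hk
  unfold strQ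
  rw [lt_div_iff₀ (by positivity)]
  linarith

/-- `q = p/(p-1)` -/
theorem strQ_eq (hk : 1 ≤ k) : strQ k = strP k / (strP k - 1) := by
  have h : (1 : ℝ) ≤ k := by exact_mod_cast hk
  unfold strQ strP
  have h4 : (k : ℝ) + 4 ≠ 0 := by positivity
  have h0 : (k : ℝ) ≠ 0 := by positivity
  have e : 2 * ((k : ℝ) + 2) / ((k : ℝ) + 4) - 1 = k / ((k : ℝ) + 4) := by
    field_simp
    ring
  rw [e]
  field_simp

theorem strPQ_conj (hk : 1 ≤ k) : (strP k).HolderConjugate (strQ k) := by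
  rw [strQ_eq hk]
  exact Real.HolderConjugate.conjExponent (strP_gt_one hk)

/-- `(k/2)(q-2) = 2` -/
theorem strQ_sub_two (hk : 1 ≤ k) : (k : ℝ) / 2 * (strQ k - 2) = 2 := by
  have h : (1 : ℝ) ≤ k := by exact_mod_cast hk
  have h0 : (k : ℝ) ≠ 0 := by positivity
  unfold strQ
  field_simp
  ring

/-- `2/q = 2 - 2/p` -/
theorem strQ_two_div (hk : 1 ≤ k) : 2 / strQ k = 2 - 2 / strP k := by
  have h : (1 : ℝ) ≤ k := by exact_mod_cast hk
  have h0 : (k : ℝ) ≠ 0 := by positivity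
  have h2 : (k : ℝ) + 2 ≠ 0 := by positivity
  have h4 : (k : ℝ) + 4 ≠ 0 := by positivity
  unfold strQ strP
  field_simp
  ring

/-- `(q-1) p = q` -/
theorem strQ_sub_one_mul (hk : 1 ≤ k) : (strQ k - 1) * strP k = strQ k := by
  have h : (1 : ℝ) ≤ k := by exact_mod_cast hk
  have h0 : (k : ℝ) ≠ 0 := by positivity
  have h4 : (k : ℝ) + 4 ≠ 0 := by positivity
  unfold strQ strP
  field_simp
  ring

section nice

variable {X : Type*} [NormedAddCommGroup X] [MeasurableSpace X] [BorelSpace X] [ProperSpace X]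

theorem StrNice.memLp {F : X → ℂ} (h : StrNice F) (μ : Measure X) [IsFiniteMeasureOnCompacts μ] (r : ℝ≥0∞) : MemLp F r μ := by
  obtain ⟨M, hM⟩ := h.bdd
  obtain ⟨R, hR⟩ := h.supp
  have e : F = (closedBall (0 : X) R).indicator F := by
    funext z
    by_cases hz : z ∈ closedBall (0 : X) R
    · rw [indicator_of_mem hz]
    · rw [indicator_of_notMem hz]
      by_contra h0
      exact hz (by simpa using hR z h0)
  rw [e, memLp_indicator_iff_restrict measurableSet_closedBall]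
  have : IsFiniteMeasure (μ.restrict (closedBall (0 : X) R)) :=
    ⟨by rw [Measure.restrict_apply_univ]; exact (isCompact_closedBall _ _).measure_lt_top⟩
  exact MemLp.of_bound h.meas.aestronglyMeasurable M (Filter.Eventually.of_forall hM)

theorem StrNice.integrable {F : X → ℂ} (h : StrNice F) (μ : Measure X) [IsFiniteMeasureOnCompacts μ] : Integrable F μ :=
  memLp_one_iff_integrable.1 (h.memLp μ 1)

end nice

/-- time slices of a nice function are nice -/
theorem StrNice.slice {F : ST k → ℂ} (h : StrNice F) (t : ℝ) : StrNice fun x : E k => F (x, t) := by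
  obtain ⟨M, hM⟩ := h.bdd
  obtain ⟨R, hR⟩ := h.supp
  refine ⟨h.meas.comp measurable_prodMk_right, ⟨M, fun z => hM _⟩, ⟨R, fun z hz => ?_⟩⟩
  exact (le_max_left _ _).trans (hR (z, t) hz)

/-- restriction of a nice function to a measurable set is nice -/
theorem StrNice.indicator {X : Type*} [NormedAddCommGroup X] [MeasurableSpace X] {F : X → ℂ} (h : StrNice F) {S : Set X}
    (hS : MeasurableSet S) : StrNice (S.indicator F) := by
  obtain ⟨M, hM⟩ := h.bdd
  obtain ⟨R, hR⟩ := h.supp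
  refine ⟨h.meas.indicator hS, ⟨M, fun z => (norm_indicator_le_norm_self _ _).trans (hM z)⟩, ⟨R, fun z hz => hR z ?_⟩⟩
  intro h0
  apply hz
  by_cases hzS : z ∈ S
  · rw [indicator_of_mem hzS, h0]
  · rw [indicator_of_notMem hzS]

end Claimed.Agent.R257
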